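import Crest.Agent.Lib.Spread.Gnp

/-!
# Bridges for the Key Lemma of S0076

* `labelled_eq_aut_mul_copy`: labelled copies = automorphisms × unlabelled copies.
* `sum_wt_subset`: `P(T ⊆ W) = q ^ #T`.
* `gnpExpect_copyCount_mul_aut`: the expected number of copies.
* `aut_le_of_hE`: the hypothesis of S0076 for a subgraph `F` says
  `aut(F) ≤ 2 (n)_{v(F)} p^{e(F)}`.
-/

set_option autoImplicit false

namespace Crest.Agent.Lib.Spread

open Finset Crest.CombinatoricsR.RandomGraph

section Count

variable {V U : Type*} [Fintype V] [Fintype U] (G : SimpleGraph V) (K : SimpleGraph U)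

lemma copy_toSubgraph_eq_exists_iso (c c' : K.Copy G) (h : c.toSubgraph = c'.toSubgraph) :
    ∃ φ : K ≃g K, ∀ a, c a = c' (φ a) := by
  have hex : ∀ Γ : G.Subgraph, c.toSubgraph = Γ → ∃ e : K ≃g Γ.coe, ∀ a, (e a).val = c a := by
    rintro Γ rfl
    exact ⟨c.isoToSubgraph, fun a => rfl⟩
  obtain ⟨e, he⟩ := hex _ h
  refine ⟨e.trans c'.isoToSubgraph.symm, fun a => ?_⟩
  have h1 : (c'.isoToSubgraph ((e.trans c'.isoToSubgraph.symm) a)).val = c' ((e.trans c'.isoToSubgraph.symm) a) := rfl
  rw [← h1, ← he a]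
  simp

lemma toSubgraph_comp_iso (c : K.Copy G) (φ : K ≃g K) :
    (c.comp φ.toCopy).toSubgraph = c.toSubgraph := by
  ext x y
  · simp only [SimpleGraph.Copy.toSubgraph, SimpleGraph.Subgraph.map_verts, SimpleGraph.Subgraph.verts_top,
      Set.image_univ, Set.mem_range]
    constructor
    · rintro ⟨a, rfl⟩
      exact ⟨φ a, rfl⟩
    · rintro ⟨a, rfl⟩
      exact ⟨φ.symm a, by
        show c (φ (φ.symm a)) = c a
        simp⟩
  · simp only [SimpleGraph.Copy.toSubgraph, SimpleGraph.Subgraph.map_adj, SimpleGraph.Subgraph.top_adj,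
      Relation.map_apply]
    constructor
    · rintro ⟨a, b, hab, rfl, rfl⟩
      exact ⟨φ a, φ b, φ.map_adj_iff.mpr hab, rfl, rfl⟩
    · rintro ⟨a, b, hab, rfl, rfl⟩
      refine ⟨φ.symm a, φ.symm b, φ.symm.map_adj_iff.mpr hab, ?_, ?_⟩
      · show c (φ (φ.symm a)) = c a
        simp
      · show c (φ (φ.symm b)) = c b
        simp

/-- Labelled copies = automorphisms × unlabelled copies. -/
lemma labelled_eq_aut_mul_copy :
    G.labelledCopyCount K = Nat.card (K ≃g K) * G.copyCount K := by
  classical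
  have : Finite (K ≃g K) := Finite.of_injective (fun φ : K ≃g K => (φ : U → U)) DFunLike.coe_injective
  let _ : Fintype (K ≃g K) := Fintype.ofFinite _
  rw [SimpleGraph.copyCount_eq_card_image_copyToSubgraph, SimpleGraph.labelledCopyCount,
    Nat.card_eq_fintype_card]
  rw [← Finset.card_univ, Finset.card_eq_sum_card_image
    (SimpleGraph.Copy.toSubgraph (A := K) (B := G)) Finset.univ]
  rw [Finset.sum_congr rfl (g := fun _ => Fintype.card (K ≃g K))]
  · rw [Finset.sum_const, smul_eq_mul, mul_comm]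
  · intro Γ hΓ
    obtain ⟨c₀, _, rfl⟩ := Finset.mem_image.mp hΓ
    symm
    rw [← Finset.card_univ]
    apply Finset.card_bij (fun φ _ => c₀.comp φ.toCopy)
    · intro φ _
      simp only [Finset.mem_filter, Finset.mem_univ, true_and]
      exact toSubgraph_comp_iso G K c₀ φ
    · intro φ _ φ' _ h
      ext a
      have := DFunLike.congr_fun h a
      exact c₀.injective this
    · intro c hc
      simp only [Finset.mem_filter, Finset.mem_univ, true_and] at hc
      obtain ⟨φ, hφ⟩ := copy_toSubgraph_eq_exists_iso G K c c₀ hc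
      refine ⟨φ, Finset.mem_univ _, ?_⟩
      ext a
      exact (hφ a).symm

end Count

section Prob

variable {X : Type*} [Fintype X] [DecidableEq X]

/-- `P(T ⊆ W) = q ^ #T`. -/
lemma sum_wt_subset (q : ℝ) (T : Finset X) :
    ∑ W : Finset X, wt q W * (if T ⊆ W then (1 : ℝ) else 0) = q ^ #T := by
  classical
  rw [← Equiv.sum_comp (outcomeEquiv (X := X))]
  have key : ∀ ω : X → Bool, wt q (outcomeEquiv ω) * (if T ⊆ outcomeEquiv ω then (1 : ℝ) else 0)
      = ∏ x : X, (if x ∈ T then (if ω x = true then q else 0)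
          else (if ω x = true then q else 1 - q)) := by
    intro ω
    by_cases hT : T ⊆ outcomeEquiv ω
    · rw [if_pos hT, mul_one]
      unfold wt
      apply Finset.prod_congr rfl
      intro x _
      have hmem : x ∈ outcomeEquiv ω ↔ ω x = true := by simp [outcomeEquiv]
      by_cases hx : x ∈ T
      · have := hmem.mp (hT hx)
        simp [hx, this, outcomeEquiv]
      · by_cases h2 : ω x = true <;> simp [hx, h2, outcomeEquiv]
    · rw [if_neg hT, mul_zero]
      symm
      obtain ⟨x, hx, hx'⟩ := Finset.not_subset.mp hT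
      apply Finset.prod_eq_zero (Finset.mem_univ x)
      have : ¬ ω x = true := by simpa [outcomeEquiv] using hx'
      simp [hx, this]
  simp_rw [key]
  have hps := (Finset.prod_univ_sum (fun _ : X => (Finset.univ : Finset Bool))
    (fun x b => (if x ∈ T then (if b = true then q else 0) else (if b = true then q else 1 - q))))
  simp only [Fintype.piFinset_univ] at hps
  rw [← hps]
  have h3 : ∀ x : X, ∑ b : Bool, (if x ∈ T then (if b = true then q else 0)
      else (if b = true then q else 1 - q)) = if x ∈ T then q else 1 := by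
    intro x
    by_cases hx : x ∈ T <;> simp [hx]
  simp_rw [h3]
  rw [Finset.prod_ite_mem, Finset.univ_inter, Finset.prod_const]

end Prob

section Expect

variable {n : ℕ} {U : Type} [Fintype U] [DecidableEq U]

lemma edgeSlots_subset_iff (K : SimpleGraph U) [DecidableRel K.Adj] (ω : EdgeSlot n → Bool)
    (f : U ↪ Fin n) :
    edgeSlots K f ⊆ outcomeEquiv ω ↔ ∀ a b, K.Adj a b → (graphOf ω).Adj (f a) (f b) := by
  constructor
  · intro hf a b hab
    have hne' : f a ≠ f b := fun h => hab.ne (f.injective h)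
    have hne : ¬ (s(f a, f b)).IsDiag := by simpa using hne'
    have hmem := hf (mem_edgeSlots_of_adj K f hab hne)
    have hω : ω ⟨s(f a, f b), hne⟩ = true := by
      simpa [outcomeEquiv] using hmem
    unfold graphOf
    rw [SimpleGraph.fromEdgeSet_adj]
    exact ⟨⟨hne, hω⟩, hne'⟩
  · intro hadj z hz
    unfold edgeSlots at hz
    rw [Finset.mem_subtype, Finset.mem_image] at hz
    obtain ⟨e, he, hez⟩ := hz
    induction e using Sym2.ind with
    | _ a b =>
      have hab : K.Adj a b := SimpleGraph.mem_edgeFinset.mp he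
      have hadj' := hadj a b hab
      have hz' : z.1 = s(f a, f b) := by
        rw [← hez]; rfl
      unfold graphOf at hadj'
      rw [SimpleGraph.fromEdgeSet_adj] at hadj'
      obtain ⟨⟨hnd, hω⟩, _⟩ := hadj'
      have hzeq : z = ⟨s(f a, f b), hnd⟩ := Subtype.ext hz'
      rw [hzeq]
      simpa [outcomeEquiv] using hω

/-- Copies of `K` in `G` as embeddings preserving adjacency. -/
def copyEquiv {V : Type} (G : SimpleGraph V) (K : SimpleGraph U) :
    K.Copy G ≃ {f : U ↪ V // ∀ a b, K.Adj a b → G.Adj (f a) (f b)} where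
  toFun c := ⟨c.toEmbedding, fun _ _ h => c.toHom.map_adj h⟩
  invFun f := ⟨⟨f.1, fun {a b} h => f.2 a b h⟩, f.1.injective⟩
  left_inv c := by ext a; rfl
  right_inv f := by ext a; rfl

lemma labelled_graphOf (K : SimpleGraph U) [DecidableRel K.Adj] (ω : EdgeSlot n → Bool) :
    (graphOf ω).labelledCopyCount K
      = #((Finset.univ : Finset (U ↪ Fin n)).filter (fun f => edgeSlots K f ⊆ outcomeEquiv ω)) := by
  classical
  rw [SimpleGraph.labelledCopyCount]
  have h := Fintype.card_congr (copyEquiv (graphOf ω) K)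
  rw [Fintype.card_subtype] at h
  refine Eq.trans ?_ (h.trans ?_)
  · congr!
  congr 1
  ext f
  simp only [Finset.mem_filter, Finset.mem_univ, true_and]
  exact (edgeSlots_subset_iff K ω f).symm

lemma card_edgeSlots (K : SimpleGraph U) [DecidableRel K.Adj] (f : U ↪ Fin n) :
    #(edgeSlots K f) = #K.edgeFinset := by
  classical
  unfold edgeSlots
  rw [Finset.card_subtype, Finset.filter_true_of_mem, Finset.card_image_of_injective]
  · exact Sym2.map.injective f.injective
  · intro z hz
    obtain ⟨e, he, rfl⟩ := Finset.mem_image.mp hz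
    induction e using Sym2.ind with
    | _ a b =>
      have hab : K.Adj a b := SimpleGraph.mem_edgeFinset.mp he
      have hne : f a ≠ f b := fun h => hab.ne (f.injective h)
      simpa using hne

/-- The expected number of labelled copies of `K` in `G(n,p)`. -/
lemma gnpExpect_labelled (K : SimpleGraph U) [DecidableRel K.Adj] (p : ℝ) :
    gnpExpect n p (fun G => (G.labelledCopyCount K : ℝ))
      = (n.descFactorial (Fintype.card U) : ℝ) * p ^ #K.edgeFinset := by
  classical
  unfold gnpExpect
  have h1 : ∀ ω : EdgeSlot n → Bool,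
      Crest.FinProb.bernoulliWeight p ω * ((graphOf ω).labelledCopyCount K : ℝ)
        = ∑ f : U ↪ Fin n, wt p (outcomeEquiv ω)
            * (if edgeSlots K f ⊆ outcomeEquiv ω then (1 : ℝ) else 0) := by
    intro ω
    rw [labelled_graphOf, bernoulliWeight_eq, Finset.card_filter]
    push_cast
    rw [Finset.mul_sum]
  simp_rw [h1]
  rw [Finset.sum_comm]
  have h2 : ∀ f : U ↪ Fin n, ∑ ω : EdgeSlot n → Bool, wt p (outcomeEquiv ω)
      * (if edgeSlots K f ⊆ outcomeEquiv ω then (1 : ℝ) else 0) = p ^ #K.edgeFinset := by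
    intro f
    rw [Equiv.sum_comp (outcomeEquiv (X := EdgeSlot n))
      (fun W => wt p W * (if edgeSlots K f ⊆ W then (1 : ℝ) else 0))]
    rw [sum_wt_subset, card_edgeSlots]
  simp_rw [h2]
  rw [Finset.sum_const, nsmul_eq_mul, Finset.card_univ, Fintype.card_embedding_eq, Fintype.card_fin]

/-- The expected number of copies of `K` in `G(n,p)`, times `aut K`. -/
lemma gnpExpect_copyCount_mul_aut (K : SimpleGraph U) [DecidableRel K.Adj] (p : ℝ) :
    gnpExpect n p (fun G => (G.copyCount K : ℝ)) * (Nat.card (K ≃g K) : ℝ)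
      = (n.descFactorial (Fintype.card U) : ℝ) * p ^ #K.edgeFinset := by
  rw [← gnpExpect_labelled]
  unfold gnpExpect
  rw [Finset.sum_mul]
  apply Finset.sum_congr rfl
  intro ω _
  show _ * ((graphOf ω).copyCount K : ℝ) * _ = _ * ((graphOf ω).labelledCopyCount K : ℝ)
  rw [labelled_eq_aut_mul_copy]
  push_cast
  ring

/-- The hypothesis of S0076 in automorphism form, for any graph `K`. -/
lemma aut_le_of_expect (K : SimpleGraph U) [DecidableRel K.Adj] (p : ℝ)
    (hE : (1 : ℝ) / 2 ≤ gnpExpect n p (fun G => (G.copyCount K : ℝ))) :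
    (Nat.card (K ≃g K) : ℝ) ≤ 2 * ((n.descFactorial (Fintype.card U) : ℝ) * p ^ #K.edgeFinset) := by
  rw [← gnpExpect_copyCount_mul_aut]
  have h0 : (0 : ℝ) ≤ (Nat.card (K ≃g K) : ℝ) := Nat.cast_nonneg _
  nlinarith

end Expect

/-- The hypothesis of S0076 in automorphism form for a subgraph `F` of `H`. -/
theorem aut_le_of_hE {n : ℕ} {W : Type} (H : SimpleGraph W) (F : H.Subgraph) [Fintype F.verts]
    [DecidableEq F.verts] [DecidableRel F.coe.Adj] (p : ℝ)
    (hE : (1 : ℝ) / 2 ≤ gnpExpect n p (fun G => (G.copyCount F.coe : ℝ))) :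
    (Nat.card (F.coe ≃g F.coe) : ℝ)
      ≤ 2 * ((n.descFactorial (Fintype.card F.verts) : ℝ) * p ^ #F.coe.edgeFinset) :=
  aut_le_of_expect F.coe p hE

section KeyForm

variable {n : ℕ} {W : Type} [Fintype W] [DecidableEq W]

/-- The Key Lemma in the form used by `result_of_key` follows from its injective-homomorphism form
`inj(S,H) ≤ (n)_{v(S)} τ^{e(S)}` for all graphs `S` without isolated vertices contained in `H`. -/
theorem key_of_inj (H : SimpleGraph W) [DecidableRel H.Adj] (τ : ℝ) (hτ : 0 ≤ τ)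
    (hInj : ∀ (V : Type) [Fintype V] [DecidableEq V] (S : SimpleGraph V) [DecidableRel S.Adj],
      (∀ v, ∃ w, S.Adj v w) → S.IsContained H →
      (H.labelledCopyCount S : ℝ) ≤ (n.descFactorial (Fintype.card V) : ℝ) * τ ^ #S.edgeFinset)
    (T : Finset (EdgeSlot n)) :
    (#((Finset.univ : Finset (W ↪ Fin n)).filter (fun f => T ⊆ edgeSlots H f)) : ℝ)
      ≤ (Fintype.card (W ↪ Fin n) : ℝ) * τ ^ #T := by
  classical
  set F := (Finset.univ : Finset (W ↪ Fin n)).filter (fun f => T ⊆ edgeSlots H f) with hF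
  rcases F.eq_empty_or_nonempty with hemp | ⟨f₀, hf₀⟩
  · rw [hemp]
    simp only [Finset.card_empty, Nat.cast_zero]
    positivity
  -- the vertices of `T` and the graph on them
  let V : Type := {v : Fin n // ∃ z ∈ T, v ∈ z.1}
  let S : SimpleGraph V :=
    { Adj := fun u v => ∃ z ∈ T, z.1 = s(u.1, v.1)
      symm := ⟨by
        rintro u v ⟨z, hz, h⟩
        exact ⟨z, hz, by rw [h, Sym2.eq_swap]⟩⟩
      loopless := ⟨by
        rintro u ⟨z, _, h⟩
        exact z.2 (by rw [h]; simp)⟩ }
  -- members of `F` reveal their preimages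
  have hedge : ∀ f ∈ F, ∀ z ∈ T, ∃ a b, H.Adj a b ∧ z.1 = s(f a, f b) := by
    intro f hf z hz
    have hsub := (Finset.mem_filter.mp hf).2 hz
    unfold edgeSlots at hsub
    rw [Finset.mem_subtype, Finset.mem_image] at hsub
    obtain ⟨e, he, hez⟩ := hsub
    induction e using Sym2.ind with
    | _ a b =>
      exact ⟨a, b, SimpleGraph.mem_edgeFinset.mp he, by rw [← hez]; rfl⟩
  have hpre : ∀ f ∈ F, ∀ v : V, ∃ a, f a = v.1 := by
    intro f hf v
    obtain ⟨z, hz, hvz⟩ := v.2
    obtain ⟨a, b, _, hzab⟩ := hedge f hf z hz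
    rw [hzab, Sym2.mem_iff] at hvz
    rcases hvz with h | h
    · exact ⟨a, h.symm⟩
    · exact ⟨b, h.symm⟩
  have hcopy : ∀ f ∈ F, ∃ c : S.Copy H, ∀ v : V, f (c v) = v.1 := by
    intro f hf
    choose g hg using hpre f hf
    have hginj : Function.Injective g := by
      intro u v huv
      apply Subtype.ext
      rw [← hg u, ← hg v, huv]
    refine ⟨⟨⟨g, ?_⟩, hginj⟩, fun v => hg v⟩
    intro u v huv
    obtain ⟨z, hz, hzuv⟩ := huv
    obtain ⟨a, b, hab, hzab⟩ := hedge f hf z hz
    rw [hzuv] at hzab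
    rw [Sym2.eq_iff] at hzab
    rcases hzab with ⟨h1, h2⟩ | ⟨h1, h2⟩
    · have e1 : g u = a := f.injective (by rw [hg u, h1])
      have e2 : g v = b := f.injective (by rw [hg v, h2])
      show H.Adj (g u) (g v)
      rw [e1, e2]; exact hab
    · have e1 : g u = b := f.injective (by rw [hg u, h1])
      have e2 : g v = a := f.injective (by rw [hg v, h2])
      show H.Adj (g u) (g v)
      rw [e1, e2]; exact hab.symm
  have hcont : S.IsContained H := by
    obtain ⟨c, _⟩ := hcopy f₀ hf₀
    exact ⟨c⟩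
  have hiso : ∀ v, ∃ w, S.Adj v w := by
    intro v
    obtain ⟨z, hz, hvz⟩ := v.2
    have hmem : v.1 ∈ z.1 := hvz
    have hex := (Sym2.mem_iff_exists.mp hmem)
    obtain ⟨w, hw⟩ := hex
    have hwV : ∃ z' ∈ T, w ∈ z'.1 := ⟨z, hz, by rw [hw]; simp⟩
    exact ⟨⟨w, hwV⟩, z, hz, hw⟩
  -- number of edges
  have hedges : #S.edgeFinset = #T := by
    have himg : S.edgeFinset.image (Sym2.map (Subtype.val : V → Fin n)) = T.image Subtype.val := by
      ext z
      simp only [Finset.mem_image]
      constructor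
      · rintro ⟨e, he, rfl⟩
        induction e using Sym2.ind with
        | _ u v =>
          obtain ⟨z', hz', h⟩ := SimpleGraph.mem_edgeFinset.mp he
          exact ⟨z', hz', by rw [h]; rfl⟩
      · rintro ⟨z', hz', rfl⟩
        obtain ⟨x, y⟩ := z'
        induction x using Sym2.ind with
        | _ a b =>
          have ha : ∃ z ∈ T, a ∈ z.1 := ⟨⟨s(a, b), y⟩, hz', by simp⟩
          have hb : ∃ z ∈ T, b ∈ z.1 := ⟨⟨s(a, b), y⟩, hz', by simp⟩
          refine ⟨s(⟨a, ha⟩, ⟨b, hb⟩), ?_, rfl⟩
          exact SimpleGraph.mem_edgeFinset.mpr ⟨⟨s(a, b), y⟩, hz', rfl⟩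
    have h1 := Finset.card_image_of_injective S.edgeFinset
      (Sym2.map.injective (Subtype.val_injective : Function.Injective (Subtype.val : V → Fin n)))
    have h2 := Finset.card_image_of_injective T
      (Subtype.val_injective : Function.Injective (Subtype.val : EdgeSlot n → Sym2 (Fin n)))
    rw [← h1, ← h2, himg]
  -- the vertex counts
  set v := Fintype.card V with hv
  set w := Fintype.card W with hw
  have hvw : v ≤ w := by
    obtain ⟨c⟩ := hcont
    exact Fintype.card_le_of_injective _ c.injective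
  set D := (n - v).descFactorial (w - v) with hD
  -- fibres
  have hfib : ∀ c : S.Copy H, #(F.filter (fun f => ∀ u : V, f (c u) = u.1)) ≤ D := by
    intro c
    let R : Finset W := Finset.univ.image c
    have hR : #R = v := by
      have hci : Function.Injective (c : V → W) := c.injective
      show #(Finset.univ.image (c : V → W)) = v
      rw [Finset.card_image_of_injective _ hci, Finset.card_univ]
    let A := {a : W // a ∉ R}
    let B := {u : Fin n // ¬ ∃ z ∈ T, u ∈ z.1}
    have hcardA : Fintype.card A = w - v := by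
      have h := Fintype.card_subtype_compl (fun a : W => a ∈ R)
      rw [Fintype.card_coe, hR] at h
      exact h
    have hcardB : Fintype.card B = n - v := by
      have h := Fintype.card_subtype_compl (fun u : Fin n => ∃ z ∈ T, u ∈ z.1)
      rw [Fintype.card_fin] at h
      exact h
    set Fib := F.filter (fun f => ∀ u : V, f (c u) = u.1) with hFib
    have hemb : ∀ f ∈ Fib, ∀ a : A, ¬ ∃ z ∈ T, f a.1 ∈ z.1 := by
      intro f hf a hcon
      have hf1 := (Finset.mem_filter.mp hf).2
      have h1 := hf1 ⟨f a.1, hcon⟩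
      have h2 : c ⟨f a.1, hcon⟩ = a.1 := f.injective h1
      exact a.2 (Finset.mem_image.mpr ⟨⟨f a.1, hcon⟩, Finset.mem_univ _, h2⟩)
    have hle : #Fib ≤ Fintype.card (A ↪ B) := by
      rw [← Fintype.card_coe]
      apply Fintype.card_le_of_injective
        (fun f : {f // f ∈ Fib} => (⟨fun a => ⟨f.1 a.1, hemb f.1 f.2 a⟩,
          fun a a' haa => Subtype.ext (f.1.injective (Subtype.mk.inj haa))⟩ : A ↪ B))
      intro f f' hff
      apply Subtype.ext
      ext a
      by_cases ha : a ∈ R
      · obtain ⟨u, _, rfl⟩ := Finset.mem_image.mp ha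
        rw [(Finset.mem_filter.mp f.2).2 u, (Finset.mem_filter.mp f'.2).2 u]
      · have h1 := congrArg (fun g : A ↪ B => (g ⟨a, ha⟩).1) hff
        exact congrArg Fin.val h1
    rw [Fintype.card_embedding_eq, hcardA, hcardB] at hle
    exact hle
  have hcover : F ⊆ (Finset.univ : Finset (S.Copy H)).biUnion
      (fun c => F.filter (fun f => ∀ u : V, f (c u) = u.1)) := by
    intro f hf
    obtain ⟨c, hc⟩ := hcopy f hf
    exact Finset.mem_biUnion.mpr ⟨c, Finset.mem_univ _, Finset.mem_filter.mpr ⟨hf, hc⟩⟩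
  have hFle : #F ≤ #(Finset.univ : Finset (S.Copy H)) * D := by
    calc #F ≤ #((Finset.univ : Finset (S.Copy H)).biUnion
          (fun c => F.filter (fun f => ∀ u : V, f (c u) = u.1))) := Finset.card_le_card hcover
      _ ≤ ∑ c : S.Copy H, #(F.filter (fun f => ∀ u : V, f (c u) = u.1)) := Finset.card_biUnion_le
      _ ≤ ∑ _c : S.Copy H, D := Finset.sum_le_sum (fun c _ => hfib c)
      _ = _ := by rw [Finset.sum_const, smul_eq_mul]
  have hlab : #(Finset.univ : Finset (S.Copy H)) = H.labelledCopyCount S := by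
    rw [SimpleGraph.labelledCopyCount, Finset.card_univ]
    congr!
  have hInj' := hInj V S hiso hcont
  rw [hedges] at hInj'
  have hmul : (n - v).descFactorial (w - v) * n.descFactorial v = n.descFactorial w :=
    Nat.descFactorial_mul_descFactorial hvw
  have hcardemb : Fintype.card (W ↪ Fin n) = n.descFactorial w := by
    rw [Fintype.card_embedding_eq, Fintype.card_fin]
  have hFleR : (#F : ℝ) ≤ (H.labelledCopyCount S : ℝ) * (D : ℝ) := by
    rw [← hlab]; exact_mod_cast hFle
  calc (#F : ℝ) ≤ (H.labelledCopyCount S : ℝ) * (D : ℝ) := hFleR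
    _ ≤ ((n.descFactorial v : ℝ) * τ ^ #T) * (D : ℝ) :=
        mul_le_mul_of_nonneg_right hInj' (Nat.cast_nonneg _)
    _ = (Fintype.card (W ↪ Fin n) : ℝ) * τ ^ #T := by
        rw [hcardemb, ← hmul]
        push_cast
        ring

end KeyForm

end Crest.Agent.Lib.Spread
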