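import Mathlib

/-!
# The spread lemma with explicit constant (product measure, fragment counting)

`wt d W` is the product-measure weight of `W : Finset X` at density `d`.
Main result `spread_final`: a family of sets of size `≤ ℓ` with
`#{i | T ⊆ H i} ≤ #I * τ ^ #T` for all `T` has a member inside a `q`-random set with probability at least `1/2`, for
`q = min 1 (2^11 * τ * (1 + log₂ ℓ))`.
-/

set_option autoImplicit false

namespace Crest.Agent.Lib.Spread

open Finset

variable {X : Type*} [Fintype X] [DecidableEq X]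

/-- Product weight of `W` at density `d`. -/
noncomputable def wt (d : ℝ) (W : Finset X) : ℝ := ∏ x : X, if x ∈ W then d else 1 - d

lemma wt_eq_pow (d : ℝ) (W : Finset X) :
    wt d W = d ^ #W * (1 - d) ^ (Fintype.card X - #W) := by
  unfold wt
  rw [Finset.prod_ite]
  simp only [Finset.prod_const]
  congr 2
  · congr 1
    ext x; simp
  · rw [Finset.filter_not, Finset.card_sdiff_of_subset (Finset.subset_univ _)]
    simp only [Finset.filter_mem_eq_inter, Finset.univ_inter, Finset.card_univ]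

lemma wt_nonneg {d : ℝ} (h0 : 0 ≤ d) (h1 : d ≤ 1) (W : Finset X) : 0 ≤ wt d W := by
  unfold wt
  apply Finset.prod_nonneg
  intro x _
  split_ifs <;> linarith

lemma sum_wt (d : ℝ) : ∑ W : Finset X, wt d W = 1 := by
  have h := Finset.prod_add (fun _ : X => d) (fun _ : X => 1 - d) (Finset.univ : Finset X)
  simp only [add_sub_cancel, Finset.prod_const_one, Finset.powerset_univ] at h
  rw [h]
  apply Finset.sum_congr rfl
  intro W _
  rw [wt_eq_pow]
  simp only [Finset.prod_const, Finset.card_sdiff_of_subset (Finset.subset_univ W), Finset.card_univ]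

/-- Ratio of weights on adding a disjoint set. -/
lemma wt_union {d : ℝ} (hd : 0 < d) (W T : Finset X) (hdis : Disjoint W T) :
    wt d W = wt d (W ∪ T) * ((1 - d) / d) ^ #T := by
  rw [wt_eq_pow, wt_eq_pow, Finset.card_union_of_disjoint hdis]
  have hle : #W + #T ≤ Fintype.card X := by
    rw [← Finset.card_union_of_disjoint hdis]; exact Finset.card_le_univ _
  have hsub : Fintype.card X - #W = (Fintype.card X - (#W + #T)) + #T := by omega
  rw [hsub, pow_add, div_pow, pow_add d]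
  have hd' : d ^ #T ≠ 0 := pow_ne_zero _ hd.ne'
  field_simp


/-- The convolution identity at the level of a fixed union. -/
lemma conv_fiber (a b : ℝ) (W : Finset X) :
    ∑ p : Finset X × Finset X, (if p.1 ∪ p.2 = W then wt a p.1 * wt b p.2 else 0)
      = wt (1 - (1 - a) * (1 - b)) W := by
  classical
  -- rewrite pairs of finsets as functions to Bool × Bool
  let e : (X → Bool × Bool) ≃ Finset X × Finset X :=
    { toFun := fun η => (univ.filter (fun x => (η x).1 = true), univ.filter (fun x => (η x).2 = true))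
      invFun := fun p x => (decide (x ∈ p.1), decide (x ∈ p.2))
      left_inv := by
        intro η; funext x; ext <;> simp
      right_inv := by
        intro p; ext x <;> simp }
  rw [← Equiv.sum_comp e]
  have key : ∀ η : X → Bool × Bool,
      (if (e η).1 ∪ (e η).2 = W then wt a (e η).1 * wt b (e η).2 else 0)
        = ∏ x : X, (if ((η x).1 || (η x).2) = decide (x ∈ W) then
            (if (η x).1 = true then a else 1 - a) * (if (η x).2 = true then b else 1 - b) else 0) := by
    intro η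
    rw [Finset.prod_ite_zero]
    have hcond : ((e η).1 ∪ (e η).2 = W) ↔ ∀ x ∈ (univ : Finset X), ((η x).1 || (η x).2) = decide (x ∈ W) := by
      constructor
      · intro h x _
        have : x ∈ (e η).1 ∪ (e η).2 ↔ x ∈ W := by rw [h]
        simp only [e, Equiv.coe_fn_mk, mem_union, mem_filter, mem_univ, true_and] at this
        by_cases hx : x ∈ W
        · simp only [hx, decide_true]
          simpa [Bool.or_eq_true] using this.mpr hx
        · simp only [hx, decide_false]
          have : ¬ ((η x).1 = true ∨ (η x).2 = true) := fun h' => hx (this.mp h')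
          simpa [Bool.or_eq_false_iff] using this
      · intro h
        ext x
        have := h x (mem_univ x)
        simp only [e, Equiv.coe_fn_mk, mem_union, mem_filter, mem_univ, true_and]
        by_cases hx : x ∈ W
        · simp only [hx, decide_true, Bool.or_eq_true] at this
          simpa [hx] using this
        · simp only [hx, decide_false, Bool.or_eq_false_iff] at this
          simp [hx, this.1, this.2]
    by_cases hc : (e η).1 ∪ (e η).2 = W
    · rw [if_pos hc, if_pos (hcond.mp hc), Finset.prod_mul_distrib]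
      simp only [wt, e, Equiv.coe_fn_mk, mem_filter, mem_univ, true_and]
    · rw [if_neg hc, if_neg (fun h => hc (hcond.mpr h))]
  simp_rw [key]
  -- product of sums
  have hps := (Finset.prod_univ_sum (fun _ : X => (univ : Finset (Bool × Bool)))
    (fun x y => (if (y.1 || y.2) = decide (x ∈ W) then
            (if y.1 = true then a else 1 - a) * (if y.2 = true then b else 1 - b) else 0)))
  simp only [Fintype.piFinset_univ] at hps
  rw [← hps]
  unfold wt
  apply Finset.prod_congr rfl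
  intro x _
  by_cases hx : x ∈ W
  · simp [hx, Fintype.sum_prod_type]
    ring
  · simp [hx, Fintype.sum_prod_type]

/-- Convolution: the union of independent random sets. -/
lemma conv_sum (a b : ℝ) (f : Finset X → ℝ) :
    ∑ W₁ : Finset X, wt a W₁ * ∑ W₂ : Finset X, wt b W₂ * f (W₁ ∪ W₂)
      = ∑ W : Finset X, wt (1 - (1 - a) * (1 - b)) W * f W := by
  classical
  simp_rw [← conv_fiber a b, Finset.sum_mul]
  rw [Finset.sum_comm]
  simp_rw [Finset.mul_sum]
  rw [← Finset.sum_product' (f := fun W₁ W₂ => wt a W₁ * (wt b W₂ * f (W₁ ∪ W₂)))]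
  simp only [Finset.univ_product_univ]
  apply Finset.sum_congr rfl
  intro p _
  rw [Finset.sum_eq_single (p.1 ∪ p.2)]
  · simp only [if_true]; ring
  · intro W _ hW
    rw [if_neg (Ne.symm hW), zero_mul]
  · simp

/-- Monotonicity of the probability of an up-set in the density. -/
lemma sum_wt_mono {a b : ℝ} (ha0 : 0 ≤ a) (hab : a ≤ b) (hb1 : b ≤ 1) (U : Finset X → Prop)
    [DecidablePred U] (hU : ∀ W W' : Finset X, W ⊆ W' → U W → U W') :
    ∑ W : Finset X, wt a W * (if U W then (1 : ℝ) else 0)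
      ≤ ∑ W : Finset X, wt b W * (if U W then (1 : ℝ) else 0) := by
  by_cases ha1 : a = 1
  · have hb : b = 1 := le_antisymm hb1 (ha1 ▸ hab)
    rw [ha1, hb]
  have ha1' : a < 1 := lt_of_le_of_ne (hab.trans hb1) ha1
  have h1a : 0 < 1 - a := by linarith
  set c := (b - a) / (1 - a) with hc
  have hc0 : 0 ≤ c := div_nonneg (by linarith) h1a.le
  have hc1 : c ≤ 1 := by
    rw [hc, div_le_one h1a]; linarith
  have hcb : 1 - (1 - a) * (1 - c) = b := by
    rw [hc]; field_simp; ring
  rw [← hcb, ← conv_sum a c]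
  apply Finset.sum_le_sum
  intro W₁ _
  apply mul_le_mul_of_nonneg_left _ (wt_nonneg ha0 (by linarith) W₁)
  by_cases hW : U W₁
  · rw [if_pos hW]
    have : ∀ W₂ : Finset X, wt c W₂ * (if U (W₁ ∪ W₂) then (1 : ℝ) else 0) = wt c W₂ := by
      intro W₂
      rw [if_pos (hU _ _ Finset.subset_union_left hW), mul_one]
    simp_rw [this]
    rw [sum_wt]
  · rw [if_neg hW]
    apply Finset.sum_nonneg
    intro W₂ _
    apply mul_nonneg (wt_nonneg hc0 hc1 W₂)
    split_ifs <;> norm_num

variable {ι : Type*} [DecidableEq ι]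

/-- `i` is good for `W` if some member inside `W ∪ H i` has at most `m` elements outside `W`. -/
def Good (I : Finset ι) (H : ι → Finset X) (m : ℕ) (W : Finset X) (i : ι) : Prop :=
  ∃ j ∈ I, H j ⊆ W ∪ H i ∧ #(H j \ W) ≤ m

open Classical in
/-- A canonical member inside `Z` (empty if there is none). -/
noncomputable def canon (I : Finset ι) (H : ι → Finset X) (Z : Finset X) : Finset X :=
  if h : ∃ j ∈ I, H j ⊆ Z then H h.choose else ∅

lemma canon_spec (I : Finset ι) (H : ι → Finset X) (Z : Finset X) (h : ∃ j ∈ I, H j ⊆ Z) :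
    ∃ j ∈ I, H j ⊆ Z ∧ canon I H Z = H j := by
  refine ⟨h.choose, h.choose_spec.1, h.choose_spec.2, ?_⟩
  unfold canon
  rw [dif_pos h]

lemma canon_card (I : Finset ι) (H : ι → Finset X) (Z : Finset X) (ℓ : ℕ)
    (hℓ : ∀ i ∈ I, #(H i) ≤ ℓ) : #(canon I H Z) ≤ ℓ := by
  unfold canon
  split_ifs with h
  · exact hℓ _ h.choose_spec.1
  · simp

lemma exists_fragment (I : Finset ι) (H : ι → Finset X) (m : ℕ) (W : Finset X) (i : ι) (hi : i ∈ I)
    (hbad : ¬ Good I H m W i) :
    ∃ T : Finset X, Disjoint W T ∧ T ⊆ canon I H (W ∪ T) ∧ T ⊆ H i ∧ m < #T := by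
  classical
  have hne : (I.filter (fun j => H j ⊆ W ∪ H i)).Nonempty :=
    ⟨i, Finset.mem_filter.mpr ⟨hi, Finset.subset_union_right⟩⟩
  obtain ⟨j₀, hj₀, hmin⟩ := Finset.exists_min_image _ (fun j => #(H j \ W)) hne
  rw [Finset.mem_filter] at hj₀
  refine ⟨H j₀ \ W, Finset.disjoint_sdiff, ?_, ?_, ?_⟩
  · -- canonical member
    have hsub : H j₀ ⊆ W ∪ (H j₀ \ W) := by
      intro x hx
      by_cases hxW : x ∈ W
      · exact Finset.mem_union_left _ hxW
      · exact Finset.mem_union_right _ (Finset.mem_sdiff.mpr ⟨hx, hxW⟩)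
    obtain ⟨j', hj', hj'sub, hcanon⟩ := canon_spec I H (W ∪ (H j₀ \ W)) ⟨j₀, hj₀.1, hsub⟩
    rw [hcanon]
    have hsubi : W ∪ (H j₀ \ W) ⊆ W ∪ H i := by
      intro x hx
      rcases Finset.mem_union.mp hx with hx | hx
      · exact Finset.mem_union_left _ hx
      · have h1 := hj₀.2 (Finset.mem_sdiff.mp hx).1
        rcases Finset.mem_union.mp h1 with h2 | h2
        · exact absurd h2 (Finset.mem_sdiff.mp hx).2
        · exact Finset.mem_union_right _ h2
    have hj'S : j' ∈ I.filter (fun j => H j ⊆ W ∪ H i) :=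
      Finset.mem_filter.mpr ⟨hj', hj'sub.trans hsubi⟩
    have hle := hmin j' hj'S
    have hsd : H j' \ W ⊆ H j₀ \ W := by
      intro x hx
      have hx' := Finset.mem_sdiff.mp hx
      rcases Finset.mem_union.mp (hj'sub hx'.1) with h2 | h2
      · exact absurd h2 hx'.2
      · exact h2
    have heq : H j' \ W = H j₀ \ W := Finset.eq_of_subset_of_card_le hsd hle
    rw [← heq]
    exact Finset.sdiff_subset
  · intro x hx
    have hx' := Finset.mem_sdiff.mp hx
    rcases Finset.mem_union.mp (hj₀.2 hx'.1) with h2 | h2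
    · exact absurd h2 hx'.2
    · exact h2
  · by_contra hcon
    exact hbad ⟨j₀, hj₀.1, hj₀.2, not_lt.mp hcon⟩

/-- The expected number of bad indices. -/
lemma bad_sum (I : Finset ι) (H : ι → Finset X) (m ℓ : ℕ) {δ τ B : ℝ} (hδ0 : 0 < δ) (hδ1 : δ < 1)
    (hτ : 0 ≤ τ) (hB : 0 ≤ B) (hℓ : ∀ i ∈ I, #(H i) ≤ ℓ)
    (hspread : ∀ T : Finset X, (#(I.filter (fun i => T ⊆ H i)) : ℝ) ≤ B * τ ^ #T)
    (hx : τ * ((1 - δ) / δ) ≤ 1) [∀ W, DecidablePred (fun i => ¬ Good I H m W i)] :
    ∑ W : Finset X, wt δ W * (#(I.filter (fun i => ¬ Good I H m W i)) : ℝ)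
      ≤ B * 2 ^ ℓ * (τ * ((1 - δ) / δ)) ^ (m + 1) := by
  classical
  set c := (1 - δ) / δ with hc
  have hc0 : 0 ≤ c := div_nonneg (by linarith) hδ0.le
  set x := τ * c with hxdef
  have hx0 : 0 ≤ x := mul_nonneg hτ hc0
  have hex : ∀ p : Finset X × ι, ∃ T : Finset X, p.2 ∈ I → ¬ Good I H m p.1 p.2 →
      Disjoint p.1 T ∧ T ⊆ canon I H (p.1 ∪ T) ∧ T ⊆ H p.2 ∧ m < #T := by
    intro p
    by_cases h : p.2 ∈ I ∧ ¬ Good I H m p.1 p.2
    · obtain ⟨T, hT⟩ := exists_fragment I H m p.1 p.2 h.1 h.2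
      exact ⟨T, fun _ _ => hT⟩
    · exact ⟨∅, fun h1 h2 => absurd ⟨h1, h2⟩ h⟩
  choose T hT using hex
  set A := ((Finset.univ : Finset (Finset X)) ×ˢ I).filter (fun p => ¬ Good I H m p.1 p.2) with hA
  let φ : Finset X × ι → Finset X × Finset X × ι := fun p => (p.1 ∪ T p, T p, p.2)
  let D : Finset (Finset X × Finset X × ι) :=
    ((Finset.univ : Finset (Finset X)) ×ˢ (Finset.univ : Finset (Finset X)) ×ˢ I).filter
      (fun q => q.2.1 ⊆ canon I H q.1 ∧ m < #q.2.1 ∧ q.2.1 ⊆ H q.2.2)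
  let g : Finset X × Finset X × ι → ℝ := fun q => wt δ q.1 * c ^ #q.2.1
  have hmemA : ∀ p ∈ A, p.2 ∈ I ∧ ¬ Good I H m p.1 p.2 := by
    intro p hp
    rw [hA, Finset.mem_filter, Finset.mem_product] at hp
    exact ⟨hp.1.2, hp.2⟩
  have h2 : ∑ p ∈ A, wt δ p.1 = ∑ p ∈ A, g (φ p) := by
    apply Finset.sum_congr rfl
    intro p hp
    obtain ⟨h1, h2⟩ := hmemA p hp
    exact wt_union hδ0 p.1 (T p) (hT p h1 h2).1
  have hinj : Set.InjOn φ (A : Set (Finset X × ι)) := by
    intro p hp p' hp' hpp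
    have hp1 := hmemA p (Finset.mem_coe.mp hp)
    have hp1' := hmemA p' (Finset.mem_coe.mp hp')
    simp only [φ, Prod.mk.injEq] at hpp
    obtain ⟨h1, h2, h3⟩ := hpp
    have hd := (hT p hp1.1 hp1.2).1
    have hd' := (hT p' hp1'.1 hp1'.2).1
    have e1 : p.1 = (p.1 ∪ T p) \ T p := by
      rw [Finset.union_sdiff_cancel_right hd]
    have e2 : p'.1 = (p'.1 ∪ T p') \ T p' := by
      rw [Finset.union_sdiff_cancel_right hd']
    ext1
    · rw [e1, e2, h1, h2]
    · exact h3
  have h3 : ∑ p ∈ A, g (φ p) = ∑ q ∈ A.image φ, g q := (Finset.sum_image hinj).symm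
  have hg0 : ∀ q, 0 ≤ g q := fun q =>
    mul_nonneg (wt_nonneg hδ0.le hδ1.le q.1) (pow_nonneg hc0 _)
  have h4 : ∑ q ∈ A.image φ, g q ≤ ∑ q ∈ D, g q := by
    apply Finset.sum_le_sum_of_subset_of_nonneg
    · intro q hq
      obtain ⟨p, hp, rfl⟩ := Finset.mem_image.mp hq
      obtain ⟨h1, h2⟩ := hmemA p hp
      obtain ⟨_, h5, h6, h7⟩ := hT p h1 h2
      simp only [D, φ, Finset.mem_filter, Finset.mem_product, Finset.mem_univ, true_and]
      exact ⟨h1, h5, h7, h6⟩
    · intro q _ _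
      exact hg0 q
  have h5 : ∑ q ∈ D, g q ≤ B * 2 ^ ℓ * x ^ (m + 1) := by
    have hfib : ∀ Z : Finset X, ∑ T' : Finset X, ∑ i ∈ I,
        (if (T' ⊆ canon I H Z ∧ m < #T' ∧ T' ⊆ H i) then g (Z, T', i) else 0)
          ≤ wt δ Z * (B * 2 ^ ℓ * x ^ (m + 1)) := by
      intro Z
      set S := (canon I H Z).powerset.filter (fun T' => m < #T') with hS
      have hstep : ∀ T' : Finset X, ∑ i ∈ I,
          (if (T' ⊆ canon I H Z ∧ m < #T' ∧ T' ⊆ H i) then g (Z, T', i) else 0)
            = if T' ∈ S then wt δ Z * c ^ #T' * (#(I.filter (fun i => T' ⊆ H i)) : ℝ) else 0 := by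
        intro T'
        by_cases hT' : T' ∈ S
        · rw [if_pos hT']
          have hmem := Finset.mem_filter.mp hT'
          have h1 : T' ⊆ canon I H Z := Finset.mem_powerset.mp hmem.1
          have h2' : m < #T' := hmem.2
          simp only [h1, h2', true_and]
          have hgc : ∀ a, g (Z, T', a) = wt δ Z * c ^ #T' := fun _ => rfl
          simp_rw [hgc]
          rw [← Finset.sum_filter, Finset.sum_const, nsmul_eq_mul, mul_comm]
        · rw [if_neg hT']
          apply Finset.sum_eq_zero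
          intro i _
          rw [if_neg]
          rintro ⟨h1, h2', _⟩
          exact hT' (Finset.mem_filter.mpr ⟨Finset.mem_powerset.mpr h1, h2'⟩)
      simp_rw [hstep]
      rw [Finset.sum_ite_mem, Finset.univ_inter]
      have hbound : ∀ T' ∈ S, wt δ Z * c ^ #T' * (#(I.filter (fun i => T' ⊆ H i)) : ℝ)
          ≤ wt δ Z * (B * x ^ (m + 1)) := by
        intro T' hT'
        have hwt := wt_nonneg hδ0.le hδ1.le Z
        rw [mul_assoc]
        apply mul_le_mul_of_nonneg_left _ hwt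
        have h1 : c ^ #T' * (#(I.filter (fun i => T' ⊆ H i)) : ℝ) ≤ c ^ #T' * (B * τ ^ #T') :=
          mul_le_mul_of_nonneg_left (hspread T') (pow_nonneg hc0 _)
        have h2' : c ^ #T' * (B * τ ^ #T') = B * x ^ #T' := by
          rw [hxdef, mul_pow]; ring
        have h3' : x ^ #T' ≤ x ^ (m + 1) :=
          pow_le_pow_of_le_one hx0 hx (Finset.mem_filter.mp hT').2
        calc _ ≤ _ := h1
          _ = _ := h2'
          _ ≤ _ := mul_le_mul_of_nonneg_left h3' hB
      calc ∑ T' ∈ S, wt δ Z * c ^ #T' * (#(I.filter (fun i => T' ⊆ H i)) : ℝ)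
          ≤ ∑ _T' ∈ S, wt δ Z * (B * x ^ (m + 1)) := Finset.sum_le_sum hbound
        _ = (#S : ℝ) * (wt δ Z * (B * x ^ (m + 1))) := by
            rw [Finset.sum_const, nsmul_eq_mul]
        _ ≤ (2 ^ ℓ : ℝ) * (wt δ Z * (B * x ^ (m + 1))) := by
            apply mul_le_mul_of_nonneg_right _
              (mul_nonneg (wt_nonneg hδ0.le hδ1.le Z) (mul_nonneg hB (pow_nonneg hx0 _)))
            have hcard : #S ≤ 2 ^ ℓ := by
              calc #S ≤ #(canon I H Z).powerset := Finset.card_filter_le _ _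
                _ = 2 ^ #(canon I H Z) := Finset.card_powerset _
                _ ≤ 2 ^ ℓ := Nat.pow_le_pow_right (by norm_num) (canon_card I H Z ℓ hℓ)
            exact_mod_cast hcard
        _ = wt δ Z * (B * 2 ^ ℓ * x ^ (m + 1)) := by ring
    have hD : ∑ q ∈ D, g q = ∑ Z : Finset X, ∑ T' : Finset X, ∑ i ∈ I,
        (if (T' ⊆ canon I H Z ∧ m < #T' ∧ T' ⊆ H i) then g (Z, T', i) else 0) := by
      simp only [D]
      rw [Finset.sum_filter, Finset.sum_product]
      apply Finset.sum_congr rfl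
      intro Z _
      rw [Finset.sum_product]
    rw [hD]
    calc _ ≤ ∑ Z : Finset X, wt δ Z * (B * 2 ^ ℓ * x ^ (m + 1)) := Finset.sum_le_sum (fun Z _ => hfib Z)
      _ = _ := by rw [← Finset.sum_mul, sum_wt, one_mul]
  have h1 : ∑ W : Finset X, wt δ W * (#(I.filter (fun i => ¬ Good I H m W i)) : ℝ)
      = ∑ p ∈ A, wt δ p.1 := by
    rw [hA, Finset.sum_filter, Finset.sum_product]
    apply Finset.sum_congr rfl
    intro W _
    rw [← Finset.sum_filter]
    show wt δ W * _ = ∑ _a ∈ _, wt δ W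
    rw [Finset.sum_const, nsmul_eq_mul, mul_comm]
  calc ∑ W : Finset X, wt δ W * (#(I.filter (fun i => ¬ Good I H m W i)) : ℝ)
      = ∑ p ∈ A, wt δ p.1 := h1
    _ = ∑ p ∈ A, g (φ p) := h2
    _ = ∑ q ∈ A.image φ, g q := h3
    _ ≤ ∑ q ∈ D, g q := h4
    _ ≤ _ := h5

/-- Number of halving rounds. -/
def rounds (ℓ : ℕ) : ℕ := if ℓ = 0 then 0 else Nat.log 2 ℓ + 1

lemma rounds_succ {ℓ : ℕ} (hℓ : 1 ≤ ℓ) : rounds ℓ = rounds (ℓ / 2) + 1 := by
  rcases Nat.lt_or_ge ℓ 2 with h | h
  · have : ℓ = 1 := by omega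
    subst this
    simp [rounds]
  · have h0 : ℓ ≠ 0 := by omega
    have h1 : ℓ / 2 ≠ 0 := by omega
    simp only [rounds, h0, h1, if_false]
    rw [Nat.log_of_one_lt_of_le (by norm_num) h]

/-- The density after the rounds for size `ℓ`. -/
noncomputable def dens (δ : ℝ) (ℓ : ℕ) : ℝ := 1 - (1 - δ) ^ rounds ℓ

lemma dens_nonneg {δ : ℝ} (h0 : 0 ≤ δ) (h1 : δ ≤ 1) (ℓ : ℕ) : 0 ≤ dens δ ℓ := by
  unfold dens
  have : (1 - δ) ^ rounds ℓ ≤ 1 := pow_le_one₀ (by linarith) (by linarith)
  linarith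

lemma dens_le_one {δ : ℝ} (h1 : δ ≤ 1) (ℓ : ℕ) : dens δ ℓ ≤ 1 := by
  unfold dens
  have : 0 ≤ (1 - δ) ^ rounds ℓ := pow_nonneg (by linarith) _
  linarith

lemma dens_succ (δ : ℝ) {ℓ : ℕ} (hℓ : 1 ≤ ℓ) :
    dens δ ℓ = 1 - (1 - δ) * (1 - dens δ (ℓ / 2)) := by
  unfold dens
  rw [rounds_succ hℓ, pow_succ]
  ring

/-- Numerics of the recursion. -/
lemma num_bound {x : ℝ} (hx0 : 0 ≤ x) (hx : x ≤ (1 / 2) ^ 11) {m ℓ : ℕ} (h1 : m + 1 ≤ ℓ)
    (h2 : ℓ ≤ 2 * m + 1) :
    (2 : ℝ) ^ ℓ * x ^ (m + 1) ≤ (1 / 2) * ((1 / 2) ^ m - (1 / 2) ^ ℓ) := by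
  have h3 : (2 : ℝ) ^ ℓ ≤ 2 ^ (2 * m + 1) := pow_le_pow_right₀ (by norm_num) h2
  have h4 : x ^ (m + 1) ≤ ((1 / 2 : ℝ) ^ 11) ^ (m + 1) := pow_le_pow_left₀ hx0 hx _
  have h5 : (2 : ℝ) ^ (2 * m + 1) * ((1 / 2 : ℝ) ^ 11) ^ (m + 1) = (1 / 2) ^ (9 * m + 10) := by
    rw [← pow_mul]
    have : 11 * (m + 1) = (2 * m + 1) + (9 * m + 10) := by ring
    rw [this, pow_add (1 / 2 : ℝ), ← mul_assoc, ← mul_pow]
    norm_num
  have h6 : (1 / 2 : ℝ) ^ (9 * m + 10) ≤ (1 / 2) ^ (m + 2) :=
    pow_le_pow_of_le_one (by norm_num) (by norm_num) (by omega)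
  have h7 : (1 / 2 : ℝ) ^ ℓ ≤ (1 / 2) ^ (m + 1) :=
    pow_le_pow_of_le_one (by norm_num) (by norm_num) h1
  have h8 : (1 / 2 : ℝ) * ((1 / 2) ^ m - (1 / 2) ^ (m + 1)) = (1 / 2) ^ (m + 2) := by
    rw [pow_succ, pow_succ, pow_succ]; ring
  have h9 : (2 : ℝ) ^ ℓ * x ^ (m + 1) ≤ 2 ^ (2 * m + 1) * ((1 / 2 : ℝ) ^ 11) ^ (m + 1) :=
    mul_le_mul h3 h4 (pow_nonneg hx0 _) (by positivity)
  have h10 : (1 / 2 : ℝ) * ((1 / 2) ^ m - (1 / 2) ^ (m + 1)) ≤ (1 / 2) * ((1 / 2) ^ m - (1 / 2) ^ ℓ) := by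
    apply mul_le_mul_of_nonneg_left _ (by norm_num)
    linarith
  linarith

/-- Indicator of failure. -/
noncomputable def fail (I : Finset ι) (H : ι → Finset X) (W : Finset X) : ℝ :=
  if ∃ i ∈ I, H i ⊆ W then 0 else 1

lemma fail_nonneg (I : Finset ι) (H : ι → Finset X) (W : Finset X) : 0 ≤ fail I H W := by
  unfold fail; split_ifs <;> norm_num

lemma fail_le_one (I : Finset ι) (H : ι → Finset X) (W : Finset X) : fail I H W ≤ 1 := by
  unfold fail; split_ifs <;> norm_num

theorem main_rec {δ τ B : ℝ} (hδ0 : 0 < δ) (hδ1 : δ < 1) (hτ : 0 ≤ τ) (hB : 0 ≤ B)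
    (hx : τ * ((1 - δ) / δ) ≤ (1 / 2) ^ 11) :
    ∀ (ℓ : ℕ) (I : Finset ι) (H : ι → Finset X), (∀ i ∈ I, #(H i) ≤ ℓ) →
      (∀ T : Finset X, (#(I.filter (fun i => T ⊆ H i)) : ℝ) ≤ B * τ ^ #T) →
      (∑ W : Finset X, wt (dens δ ℓ) W * fail I H W) * (#I : ℝ)
        ≤ (1 / 2) * (1 - (1 / 2) ^ ℓ) * B := by
  classical
  have hc0 : 0 ≤ (1 - δ) / δ := div_nonneg (by linarith) hδ0.le
  have hx0 : 0 ≤ τ * ((1 - δ) / δ) := mul_nonneg hτ hc0
  intro ℓ
  induction ℓ using Nat.strong_induction_on with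
  | _ ℓ ih =>
    intro I H hℓ hspread
    rcases Nat.eq_zero_or_pos ℓ with h0 | hpos
    · subst h0
      simp only [pow_zero, sub_self, mul_zero, zero_mul]
      rcases I.eq_empty_or_nonempty with hI | ⟨i, hi⟩
      · simp [hI]
      · have hzero : ∀ W : Finset X, fail I H W = 0 := by
          intro W
          unfold fail
          rw [if_pos]
          refine ⟨i, hi, ?_⟩
          have := hℓ i hi
          have hemp : H i = ∅ := Finset.card_eq_zero.mp (by omega)
          rw [hemp]; exact Finset.empty_subset _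
        simp [hzero]
    · set m := ℓ / 2 with hm
      have hmlt : m < ℓ := Nat.div_lt_self hpos (by norm_num)
      have hm1 : m + 1 ≤ ℓ := hmlt
      have hm2 : ℓ ≤ 2 * m + 1 := by omega
      set d := dens δ m with hd
      have hd0 : 0 ≤ d := dens_nonneg hδ0.le hδ1.le m
      have hd1 : d ≤ 1 := dens_le_one hδ1.le m
      rw [dens_succ δ hpos, ← conv_sum δ d (fail I H)]
      -- fibre bound
      have hfib : ∀ W₁ : Finset X,
          (∑ W₂ : Finset X, wt d W₂ * fail I H (W₁ ∪ W₂)) * (#I : ℝ)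
            ≤ (1 / 2) * (1 - (1 / 2) ^ m) * B + (#(I.filter (fun i => ¬ Good I H m W₁ i)) : ℝ) := by
        intro W₁
        have hex : ∀ i : ι, ∃ T : Finset X, Good I H m W₁ i →
            (T ⊆ H i ∧ #T ≤ m ∧ ∃ j ∈ I, H j ⊆ W₁ ∪ T) := by
          intro i
          by_cases hg : Good I H m W₁ i
          · obtain ⟨j, hj, hsub, hcard⟩ := hg
            refine ⟨H j \ W₁, fun _ => ⟨?_, hcard, j, hj, ?_⟩⟩
            · intro x hx'
              have hx'' := Finset.mem_sdiff.mp hx'
              rcases Finset.mem_union.mp (hsub hx''.1) with h2 | h2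
              · exact absurd h2 hx''.2
              · exact h2
            · intro x hx'
              by_cases hxW : x ∈ W₁
              · exact Finset.mem_union_left _ hxW
              · exact Finset.mem_union_right _ (Finset.mem_sdiff.mpr ⟨hx', hxW⟩)
          · exact ⟨∅, fun h => absurd h hg⟩
        choose H' hH' using hex
        set I' := I.filter (fun i => Good I H m W₁ i) with hI'
        have hI'mem : ∀ i ∈ I', i ∈ I ∧ Good I H m W₁ i := fun i hi => Finset.mem_filter.mp hi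
        have hIH := ih m hmlt I' H'
          (fun i hi => (hH' i (hI'mem i hi).2).2.1)
          (fun T => by
            refine le_trans ?_ (hspread T)
            have hsub : I'.filter (fun i => T ⊆ H' i) ⊆ I.filter (fun i => T ⊆ H i) := by
              intro i hi
              rw [Finset.mem_filter] at hi ⊢
              have := hI'mem i hi.1
              exact ⟨this.1, hi.2.trans (hH' i this.2).1⟩
            exact_mod_cast Finset.card_le_card hsub)
        set P := ∑ W₂ : Finset X, wt d W₂ * fail I H (W₁ ∪ W₂) with hP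
        set P' := ∑ W₂ : Finset X, wt d W₂ * fail I' H' W₂ with hP'
        have hPP' : P ≤ P' := by
          apply Finset.sum_le_sum
          intro W₂ _
          apply mul_le_mul_of_nonneg_left _ (wt_nonneg hd0 hd1 W₂)
          by_cases hc : ∃ i ∈ I', H' i ⊆ W₂
          · obtain ⟨i, hi, hsub⟩ := hc
            obtain ⟨_, _, j, hj, hjsub⟩ := hH' i (hI'mem i hi).2
            have : fail I H (W₁ ∪ W₂) = 0 := by
              unfold fail
              rw [if_pos]
              exact ⟨j, hj, hjsub.trans (Finset.union_subset_union_right hsub)⟩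
            rw [this]
            exact fail_nonneg _ _ _
          · have : fail I' H' W₂ = 1 := by
              unfold fail
              rw [if_neg hc]
            rw [this]
            exact fail_le_one _ _ _
        have hP1 : P ≤ 1 := by
          calc P ≤ ∑ W₂ : Finset X, wt d W₂ * 1 := by
                apply Finset.sum_le_sum
                intro W₂ _
                exact mul_le_mul_of_nonneg_left (fail_le_one _ _ _) (wt_nonneg hd0 hd1 W₂)
            _ = 1 := by simp [sum_wt]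
        have hP0 : 0 ≤ P := Finset.sum_nonneg (fun W₂ _ =>
          mul_nonneg (wt_nonneg hd0 hd1 W₂) (fail_nonneg _ _ _))
        have hcard : (#I : ℝ) = (#I' : ℝ) + (#(I.filter (fun i => ¬ Good I H m W₁ i)) : ℝ) := by
          rw [hI']
          exact_mod_cast (Finset.card_filter_add_card_filter_not (s := I) (fun i => Good I H m W₁ i)).symm
        rw [hcard, mul_add]
        have hA : P * (#I' : ℝ) ≤ (1 / 2) * (1 - (1 / 2) ^ m) * B :=
          le_trans (mul_le_mul_of_nonneg_right hPP' (Nat.cast_nonneg _)) hIH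
        have hB' : P * (#(I.filter (fun i => ¬ Good I H m W₁ i)) : ℝ)
            ≤ (#(I.filter (fun i => ¬ Good I H m W₁ i)) : ℝ) := by
          have : (0:ℝ) ≤ (#(I.filter (fun i => ¬ Good I H m W₁ i)) : ℝ) := Nat.cast_nonneg _
          nlinarith
        linarith
      -- integrate over W₁
      have hbad := bad_sum I H m ℓ hδ0 hδ1 hτ hB hℓ hspread
        (hx.trans (by norm_num))
      have hbad' : ∑ W₁ : Finset X, wt δ W₁ * (#(I.filter (fun i => ¬ Good I H m W₁ i)) : ℝ)
          ≤ B * 2 ^ ℓ * (τ * ((1 - δ) / δ)) ^ (m + 1) := hbad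
      have hnum := num_bound hx0 hx hm1 hm2
      calc (∑ W₁ : Finset X, wt δ W₁ * ∑ W₂ : Finset X, wt d W₂ * fail I H (W₁ ∪ W₂)) * (#I : ℝ)
          = ∑ W₁ : Finset X, wt δ W₁ * ((∑ W₂ : Finset X, wt d W₂ * fail I H (W₁ ∪ W₂)) * (#I : ℝ)) := by
            rw [Finset.sum_mul]
            apply Finset.sum_congr rfl
            intro W₁ _
            ring
        _ ≤ ∑ W₁ : Finset X, wt δ W₁ * ((1 / 2) * (1 - (1 / 2) ^ m) * B
              + (#(I.filter (fun i => ¬ Good I H m W₁ i)) : ℝ)) :=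
            Finset.sum_le_sum (fun W₁ _ =>
              mul_le_mul_of_nonneg_left (hfib W₁) (wt_nonneg hδ0.le hδ1.le W₁))
        _ = (1 / 2) * (1 - (1 / 2) ^ m) * B
              + ∑ W₁ : Finset X, wt δ W₁ * (#(I.filter (fun i => ¬ Good I H m W₁ i)) : ℝ) := by
            simp_rw [mul_add]
            rw [Finset.sum_add_distrib, ← Finset.sum_mul, sum_wt, one_mul]
        _ ≤ (1 / 2) * (1 - (1 / 2) ^ m) * B + B * 2 ^ ℓ * (τ * ((1 - δ) / δ)) ^ (m + 1) := by
            linarith
        _ ≤ (1 / 2) * (1 - (1 / 2) ^ ℓ) * B := by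
            have : B * ((2 : ℝ) ^ ℓ * (τ * ((1 - δ) / δ)) ^ (m + 1))
                ≤ B * ((1 / 2) * ((1 / 2) ^ m - (1 / 2) ^ ℓ)) :=
              mul_le_mul_of_nonneg_left hnum hB
            nlinarith

/-- Weight at density `1` is concentrated on the full set. -/
lemma sum_wt_one (f : Finset X → ℝ) : ∑ W : Finset X, wt 1 W * f W = f Finset.univ := by
  rw [Finset.sum_eq_single Finset.univ]
  · have : wt (1 : ℝ) (Finset.univ : Finset X) = 1 := by
      unfold wt; simp
    rw [this, one_mul]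
  · intro W _ hW
    have : wt (1 : ℝ) W = 0 := by
      unfold wt
      obtain ⟨x, hx⟩ : ∃ x, x ∉ W := by
        by_contra hcon
        push Not at hcon
        exact hW (Finset.eq_univ_iff_forall.mpr hcon)
      apply Finset.prod_eq_zero (Finset.mem_univ x)
      simp [hx]
    rw [this, zero_mul]
  · simp

/-- The spread lemma. -/
theorem spread_final (I : Finset ι) (hI : I.Nonempty) (H : ι → Finset X) (ℓ : ℕ) (hℓ1 : 1 ≤ ℓ)
    (hsize : ∀ i ∈ I, #(H i) ≤ ℓ) (τ : ℝ) (hτ : 0 ≤ τ)
    (hspread : ∀ T : Finset X, (#(I.filter (fun i => T ⊆ H i)) : ℝ) ≤ (#I : ℝ) * τ ^ #T) :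
    (1 / 2 : ℝ) ≤ ∑ W : Finset X, wt (min 1 (2 ^ 11 * τ * (1 + Real.logb 2 (ℓ : ℝ)))) W
        * (if ∃ i ∈ I, H i ⊆ W then (1 : ℝ) else 0) := by
  classical
  have hlog0 : 0 ≤ Real.logb 2 (ℓ : ℝ) := by
    apply Real.logb_nonneg (by norm_num)
    exact_mod_cast hℓ1
  rcases hτ.eq_or_lt with h0 | hτpos
  · -- τ = 0: all members are empty
    have hemp : ∀ i ∈ I, H i = ∅ := by
      intro i hi
      by_contra hne
      obtain ⟨x, hx⟩ := Finset.nonempty_iff_ne_empty.mpr hne
      have h1 := hspread {x}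
      rw [← h0] at h1
      simp only [Finset.card_singleton, pow_one, mul_zero] at h1
      have h2 : 0 < #(I.filter (fun i => ({x} : Finset X) ⊆ H i)) :=
        Finset.card_pos.mpr ⟨i, Finset.mem_filter.mpr ⟨hi, by simpa using hx⟩⟩
      have h3 : (0 : ℝ) < (#(I.filter (fun i => ({x} : Finset X) ⊆ H i)) : ℝ) := by exact_mod_cast h2
      linarith
    obtain ⟨i, hi⟩ := hI
    have hall : ∀ W : Finset X, (if ∃ i ∈ I, H i ⊆ W then (1 : ℝ) else 0) = 1 := by
      intro W
      rw [if_pos]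
      exact ⟨i, hi, by rw [hemp i hi]; exact Finset.empty_subset _⟩
    simp_rw [hall, mul_one]
    rw [sum_wt]
    norm_num
  set δ : ℝ := 2 ^ 11 * τ with hδ
  have hδpos : 0 < δ := by positivity
  by_cases hδ1 : δ < 1
  · -- the main case
    have hxeq : τ * ((1 - δ) / δ) = (1 - δ) / 2 ^ 11 := by
      rw [hδ]; field_simp
    have hx : τ * ((1 - δ) / δ) ≤ (1 / 2) ^ 11 := by
      rw [hxeq]
      have : (1 - δ) / 2 ^ 11 ≤ 1 / 2 ^ 11 := by
        apply div_le_div_of_nonneg_right (by linarith) (by positivity)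
      calc _ ≤ _ := this
        _ = _ := by norm_num
    have hmain := main_rec (ι := ι) (X := X) hδpos hδ1 hτ (Nat.cast_nonneg #I) hx ℓ I H hsize hspread
    have hIpos : (0 : ℝ) < (#I : ℝ) := by exact_mod_cast Finset.card_pos.mpr hI
    have hfail : ∑ W : Finset X, wt (dens δ ℓ) W * fail I H W ≤ 1 / 2 := by
      have h1 : (1 / 2 : ℝ) * (1 - (1 / 2) ^ ℓ) * (#I : ℝ) ≤ (1 / 2) * (#I : ℝ) := by
        have : (0 : ℝ) ≤ (1 / 2) ^ ℓ := by positivity
        nlinarith
      have h2 := hmain.trans h1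
      exact le_of_mul_le_mul_right h2 hIpos
    have hsucc : ∀ W : Finset X, (if ∃ i ∈ I, H i ⊆ W then (1 : ℝ) else 0) = 1 - fail I H W := by
      intro W
      unfold fail
      split_ifs <;> norm_num
    have hdens : (1 / 2 : ℝ) ≤ ∑ W : Finset X, wt (dens δ ℓ) W
        * (if ∃ i ∈ I, H i ⊆ W then (1 : ℝ) else 0) := by
      simp_rw [hsucc, mul_sub, mul_one]
      rw [Finset.sum_sub_distrib, sum_wt]
      linarith
    refine hdens.trans ?_
    apply sum_wt_mono (dens_nonneg hδpos.le hδ1.le ℓ) _ (min_le_left _ _) (fun W => ∃ i ∈ I, H i ⊆ W)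
    · rintro W W' hsub ⟨i, hi, hiW⟩
      exact ⟨i, hi, hiW.trans hsub⟩
    · apply le_min (dens_le_one hδ1.le ℓ)
      -- Bernoulli
      have hb := one_add_mul_le_pow (a := -δ) (by linarith) (rounds ℓ)
      have hr : (rounds ℓ : ℝ) ≤ 1 + Real.logb 2 (ℓ : ℝ) := by
        have h0 : ℓ ≠ 0 := by omega
        simp only [rounds, h0, if_false]
        push_cast
        have := Real.natLog_le_logb ℓ 2
        push_cast at this
        linarith
      have hsub : dens δ ℓ ≤ (rounds ℓ : ℝ) * δ := by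
        unfold dens
        have : (1 - δ) ^ rounds ℓ = (1 + -δ) ^ rounds ℓ := by ring
        rw [this]
        nlinarith
      calc dens δ ℓ ≤ (rounds ℓ : ℝ) * δ := hsub
        _ ≤ (1 + Real.logb 2 (ℓ : ℝ)) * δ := mul_le_mul_of_nonneg_right hr hδpos.le
        _ = _ := by rw [hδ]; ring
  · -- density one
    have hq : min 1 (2 ^ 11 * τ * (1 + Real.logb 2 (ℓ : ℝ))) = 1 := by
      apply min_eq_left
      push Not at hδ1
      nlinarith
    rw [hq, sum_wt_one]
    obtain ⟨i, hi⟩ := hI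
    rw [if_pos ⟨i, hi, Finset.subset_univ _⟩]
    norm_num

end Crest.Agent.Lib.Spread
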