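import Crest.Agent.Lib.Spread.Bridge

/-!
# S0076 from the purely combinatorial Key Lemma

`KeyLemma τ₀`: in a graph `H` on at most `n` vertices in which every subgraph `F` has
`aut(F) ≤ 2 (n)_{v(F)} p^{e(F)}`, every graph `S` without isolated vertices has
`inj(S,H) ≤ (n)_{v(S)} (e^50 p)^{e(S)}`.
-/

set_option autoImplicit false

namespace Crest.Agent.Lib.Spread

open Finset Crest.CombinatoricsR.RandomGraph

open Classical in
/-- The Key Lemma of S0076, with no probability left in it. -/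
def KeyLemma : Prop :=
  ∀ (n : ℕ), 2 ≤ n → ∀ (W : Type) [Fintype W] (H : SimpleGraph W), Fintype.card W ≤ n →
    1 ≤ #H.edgeFinset → ∀ (p : ℝ), 0 ≤ p → p ≤ 1 →
    (∀ F : H.Subgraph, (Nat.card (F.coe ≃g F.coe) : ℝ)
      ≤ 2 * ((n.descFactorial (Fintype.card F.verts) : ℝ) * p ^ #F.coe.edgeFinset)) →
    ∀ (V : Type) [Fintype V] (S : SimpleGraph V), (∀ v, ∃ w, S.Adj v w) → S.IsContained H →
      (H.labelledCopyCount S : ℝ)
        ≤ (n.descFactorial (Fintype.card V) : ℝ) * (Real.exp 50 * p) ^ #S.edgeFinset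

/-- S0076 from the Key Lemma. -/
theorem result_of_keyLemma (hK : KeyLemma)
    (n : ℕ) (hn : 2 ≤ n) (W : Type) [Fintype W] [DecidableEq W] (H : SimpleGraph W)
    [DecidableRel H.Adj] (hW : Fintype.card W ≤ n) (hH : 1 ≤ H.edgeFinset.card)
    (p : ℝ) (hp0 : 0 ≤ p) (hp1 : p ≤ 1)
    (hE : ∀ F : H.Subgraph, (1 : ℝ) / 2 ≤
      Crest.CombinatoricsR.RandomGraph.gnpExpect n p (fun G => (G.copyCount F.coe : ℝ))) :
    (1 : ℝ) / 2 ≤ Crest.CombinatoricsR.RandomGraph.gnpProb n
      (min 1 (2048 * Real.exp 50 * p * (1 + Real.logb 2 (H.edgeFinset.card : ℝ))))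
      {G | H.IsContained G} := by
  classical
  apply result_of_key hn H hW hH p hp0
  apply key_of_inj H (Real.exp 50 * p) (mul_nonneg (Real.exp_pos _).le hp0)
  intro V _ _ S _ hiso hcont
  have := hK n hn W H hW (by convert hH) p hp0 hp1 (fun F => by
      have h := aut_le_of_hE (n := n) H F p (hE F)
      convert h) V S hiso hcont
  convert this

end Crest.Agent.Lib.Spread
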