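import Crest.Agent.Lib.Spread.Core
import Crest.Prelude.Def_RandomGraph

/-!
# Reduction of S0076 to the Key Lemma

`result_of_key`: if the uniformly random embedding of `H` in `K_n` is `e^50 p`-spread, then the
conclusion of S0076 holds.
-/

set_option autoImplicit false

namespace Crest.Agent.Lib.Spread

open Finset Crest.CombinatoricsR.RandomGraph

section Transfer

variable {X : Type*} [Fintype X] [DecidableEq X]

/-- The outcome of a finset. -/
def outcomeEquiv : (X → Bool) ≃ Finset X where
  toFun ω := Finset.univ.filter (fun x => ω x = true)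
  invFun W x := decide (x ∈ W)
  left_inv := by
    intro ω; funext x
    by_cases h : ω x = true <;> simp [h]
  right_inv := by
    intro W; ext x; simp

lemma bernoulliWeight_eq (q : ℝ) (ω : X → Bool) :
    Crest.FinProb.bernoulliWeight q ω = wt q (outcomeEquiv ω) := by
  unfold Crest.FinProb.bernoulliWeight wt
  apply Finset.prod_congr rfl
  intro x _
  simp [outcomeEquiv]

/-- `bernoulliProb` of an event containing an up-set image is at least the `wt`-sum. -/
lemma sum_wt_le_bernoulliProb {q : ℝ} (h0 : 0 ≤ q) (h1 : q ≤ 1) (E : Set (X → Bool))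
    (U : Finset X → Prop) [DecidablePred U] (hU : ∀ ω : X → Bool, U (outcomeEquiv ω) → ω ∈ E) :
    ∑ W : Finset X, wt q W * (if U W then (1 : ℝ) else 0) ≤ Crest.FinProb.bernoulliProb q E := by
  classical
  unfold Crest.FinProb.bernoulliProb
  rw [← Equiv.sum_comp outcomeEquiv]
  rw [Finset.sum_filter]
  apply Finset.sum_le_sum
  intro ω _
  rw [bernoulliWeight_eq]
  have hw := wt_nonneg h0 h1 (outcomeEquiv ω)
  by_cases hE : ω ∈ E
  · rw [if_pos hE]
    split_ifs <;> simp [hw]
  · rw [if_neg hE]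
    rw [if_neg (fun h => hE (hU ω h))]
    simp

end Transfer

section Graph

variable {n : ℕ} {W : Type} [Fintype W] [DecidableEq W]

/-- The edge slots occupied by the image of `H` under the embedding `f`. -/
noncomputable def edgeSlots (H : SimpleGraph W) [DecidableRel H.Adj] (f : W ↪ Fin n) :
    Finset (EdgeSlot n) :=
  (H.edgeFinset.image (Sym2.map f)).subtype (fun z => ¬ z.IsDiag)

lemma card_edgeSlots_le (H : SimpleGraph W) [DecidableRel H.Adj] (f : W ↪ Fin n) :
    #(edgeSlots H f) ≤ #H.edgeFinset := by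
  unfold edgeSlots
  rw [Finset.card_subtype]
  exact (Finset.card_filter_le _ _).trans Finset.card_image_le

lemma mem_edgeSlots_of_adj (H : SimpleGraph W) [DecidableRel H.Adj] (f : W ↪ Fin n) {a b : W}
    (hab : H.Adj a b) (hne : ¬ (s(f a, f b)).IsDiag) :
    (⟨s(f a, f b), hne⟩ : EdgeSlot n) ∈ edgeSlots H f := by
  unfold edgeSlots
  rw [Finset.mem_subtype, Finset.mem_image]
  exact ⟨s(a, b), SimpleGraph.mem_edgeFinset.mpr hab, by simp⟩

lemma isContained_of_edgeSlots_subset (H : SimpleGraph W) [DecidableRel H.Adj] (f : W ↪ Fin n)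
    (ω : EdgeSlot n → Bool) (hsub : edgeSlots H f ⊆ outcomeEquiv ω) :
    H.IsContained (graphOf ω) := by
  refine ⟨⟨⟨f, ?_⟩, f.injective⟩⟩
  intro a b hab
  have hne' : f a ≠ f b := fun h => hab.ne (f.injective h)
  have hne : ¬ (s(f a, f b)).IsDiag := by simpa using hne'
  have hmem := hsub (mem_edgeSlots_of_adj H f hab hne)
  have hω : ω ⟨s(f a, f b), hne⟩ = true := by
    simpa [outcomeEquiv] using hmem
  unfold graphOf
  rw [SimpleGraph.fromEdgeSet_adj]
  exact ⟨⟨hne, hω⟩, hne'⟩

/-- **Reduction of S0076 to the Key Lemma**: spreadness of the random embedding implies the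
conclusion of S0076. -/
theorem result_of_key (hn : 2 ≤ n) (H : SimpleGraph W) [DecidableRel H.Adj]
    (hW : Fintype.card W ≤ n) (hH : 1 ≤ H.edgeFinset.card) (p : ℝ) (hp0 : 0 ≤ p)
    (hKey : ∀ T : Finset (EdgeSlot n),
      (#((Finset.univ : Finset (W ↪ Fin n)).filter (fun f => T ⊆ edgeSlots H f)) : ℝ)
        ≤ (Fintype.card (W ↪ Fin n) : ℝ) * (Real.exp 50 * p) ^ #T) :
    (1 : ℝ) / 2 ≤ Crest.CombinatoricsR.RandomGraph.gnpProb n
      (min 1 (2048 * Real.exp 50 * p * (1 + Real.logb 2 (H.edgeFinset.card : ℝ))))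
      {G | H.IsContained G} := by
  classical
  have hne : (Finset.univ : Finset (W ↪ Fin n)).Nonempty := by
    have : Nonempty (W ↪ Fin n) := Function.Embedding.nonempty_of_card_le (by simpa using hW)
    exact Finset.univ_nonempty
  have hτ : 0 ≤ Real.exp 50 * p := mul_nonneg (Real.exp_pos _).le hp0
  have hmain := spread_final (X := EdgeSlot n) (ι := W ↪ Fin n) Finset.univ hne (edgeSlots H)
    (H.edgeFinset.card) hH (fun f _ => card_edgeSlots_le H f) (Real.exp 50 * p) hτ
    (fun T => by
      have := hKey T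
      rwa [Finset.card_univ])
  have hlog0 : 0 ≤ Real.logb 2 (H.edgeFinset.card : ℝ) := by
    apply Real.logb_nonneg (by norm_num)
    exact_mod_cast hH
  have hq : (2 : ℝ) ^ 11 * (Real.exp 50 * p) * (1 + Real.logb 2 (H.edgeFinset.card : ℝ))
      = 2048 * Real.exp 50 * p * (1 + Real.logb 2 (H.edgeFinset.card : ℝ)) := by
    have h2 : (2 : ℝ) ^ 11 = 2048 := by norm_num
    rw [h2]; ring
  rw [hq] at hmain
  have hq0 : 0 ≤ min 1 (2048 * Real.exp 50 * p * (1 + Real.logb 2 (H.edgeFinset.card : ℝ))) := by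
    apply le_min (by norm_num)
    have := (Real.exp_pos 50).le
    positivity
  have hq1 := min_le_left 1 (2048 * Real.exp 50 * p * (1 + Real.logb 2 (H.edgeFinset.card : ℝ)))
  refine hmain.trans ?_
  unfold gnpProb
  apply sum_wt_le_bernoulliProb hq0 hq1
    {ω : EdgeSlot n → Bool | graphOf ω ∈ {G | H.IsContained G}}
    (fun Z => ∃ i ∈ (Finset.univ : Finset (W ↪ Fin n)), edgeSlots H i ⊆ Z)
  rintro ω ⟨f, _, hf⟩
  exact isContained_of_edgeSlots_subset H f ω hf

end Graph

end Crest.Agent.Lib.Spread
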